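import Vale.Agent.Lib.P308.Defs

/-!
# Invariance of matching counts under automorphisms
-/

namespace Vale.Agent.Lib.P308

variable {V : Type*} [Fintype V] [DecidableEq V]

theorem au_mem_conj (G : SimpleGraph V) [DecidableRel G.Adj] (ψ : G ≃g G) (S : Finset V)
    {m : V → V} (hm : m ∈ holes G S) : (ψ ∘ m ∘ ψ.symm) ∈ holes G (S.image ψ) := by
  simp only [holes, Finset.mem_filter, Finset.mem_univ, true_and] at hm ⊢
  obtain ⟨h1, h2, h3⟩ := hm
  refine ⟨?_, ?_, ?_⟩
  · intro v
    simp [h1]
  · intro v
    simp only [Function.comp, Finset.mem_image]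
    constructor
    · intro hv
      have hv' : m (ψ.symm v) = ψ.symm v := by
        apply ψ.injective
        rw [hv]
        simp
      exact ⟨ψ.symm v, (h2 _).mp hv', by simp⟩
    · rintro ⟨a, ha, rfl⟩
      have := (h2 a).mpr ha
      simp [this]
  · intro v hv
    have hv' : ψ.symm v ∉ S := by
      intro hc
      exact hv (Finset.mem_image.mpr ⟨ψ.symm v, hc, by simp⟩)
    have := h3 _ hv'
    have h4 := ψ.map_rel_iff.mpr this
    simpa using h4

/-- `m ↦ φ ∘ m ∘ φ⁻¹` is a bijection between matchings with holes `S` and with holes `φ S`. -/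
theorem Z_image (G : SimpleGraph V) [DecidableRel G.Adj] (φ : G ≃g G) (S : Finset V) :
    Z G (S.image φ) = Z G S := by
  unfold Z
  symm
  refine Finset.card_nbij' (fun m => φ ∘ m ∘ φ.symm) (fun m => φ.symm ∘ m ∘ φ) ?_ ?_ ?_ ?_
  · intro m hm
    exact au_mem_conj G φ S hm
  · intro m hm
    have h := au_mem_conj G φ.symm (S.image φ) hm
    have e : (S.image φ).image φ.symm = S := by
      ext a
      simp only [Finset.mem_image]
      constructor
      · rintro ⟨b, ⟨c, hc, rfl⟩, rfl⟩
        simpa using hc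
      · intro ha
        exact ⟨φ a, ⟨a, ha, rfl⟩, by simp⟩
    rw [e] at h
    have e2 : (φ.symm ∘ m ∘ φ.symm.symm) = (φ.symm ∘ m ∘ φ) := rfl
    rw [e2] at h
    exact h
  · intro m _
    funext v
    simp
  · intro m _
    funext v
    simp

end Vale.Agent.Lib.P308
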