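import Mathlib

/-!
# Matchings of a graph with a prescribed set of uncovered vertices
-/

namespace Vale.Agent.Lib.P308

variable {V : Type*} [Fintype V] [DecidableEq V]

/-- Matchings of `G` whose set of uncovered vertices is exactly `S`, encoded as involutions:
`m v` is the partner of `v`, and `m v = v` exactly for the uncovered vertices. -/
def holes (G : SimpleGraph V) [DecidableRel G.Adj] (S : Finset V) : Finset (V → V) :=
  Finset.univ.filter fun m =>
    (∀ v, m (m v) = v) ∧ (∀ v, m v = v ↔ v ∈ S) ∧ ∀ v, v ∉ S → G.Adj v (m v)

/-- The number of matchings of `G` whose set of uncovered vertices is exactly `S`. -/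
def Z (G : SimpleGraph V) [DecidableRel G.Adj] (S : Finset V) : ℕ := (holes G S).card

/-- Near-perfect matchings of `G`, encoded as involutions: exactly two vertices are uncovered. -/
def nearPerfect (G : SimpleGraph V) [DecidableRel G.Adj] : Finset (V → V) :=
  Finset.univ.filter fun m =>
    (∀ v, m (m v) = v) ∧ (Finset.univ.filter fun v => m v = v).card = 2 ∧
      ∀ v, m v ≠ v → G.Adj v (m v)

end Vale.Agent.Lib.P308
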