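import Vale.Agent.Lib.P308.Defs

/-!
# A distance function for the graph of automorphisms moving `u` to a neighbour

Let `Γ` be the graph on `V` with `a ~ b` iff `a ≠ b` and `φ a = b` for some automorphism `φ` of `G`
with `G.Adj u (φ u)`.  (Such `φ` are closed under inverse: apply `φ⁻¹` to the edge `u, φ u`.)
`Γ` is connected: let `H` be the subgroup of automorphisms generated by those `φ`; `H u = V`, because
if `a = h u` and `b ~ a` in `G` then `h⁻¹ b ~ u`, so by transitivity `h⁻¹ b = φ u` with such a `φ`,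
so `b = h φ u`; and `a, h a` are `Γ`-connected for all `h` in `H`.  Take `d v = Γ.dist u v`.
`Γ`-neighbours of `u` are `G`-neighbours of `u`.  For `d v ≥ 2` take a `Γ`-neighbour `φ v` of `v`
with `d (φ v) + 1 = d v`; `φ.symm v` is equal or `Γ`-adjacent to `v`.
-/

namespace Vale.Agent.Lib.P308

variable {V : Type*} [Fintype V] [DecidableEq V]

/-- the graph of automorphisms moving `u` to a neighbour -/
def dsGamma (G : SimpleGraph V) (u : V) : SimpleGraph V where
  Adj a b := a ≠ b ∧ ((∃ φ : G ≃g G, G.Adj u (φ u) ∧ φ a = b) ∨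
    ∃ φ : G ≃g G, G.Adj u (φ u) ∧ φ b = a)
  symm := ⟨by
    rintro a b ⟨hne, h | h⟩
    · exact ⟨hne.symm, Or.inr h⟩
    · exact ⟨hne.symm, Or.inl h⟩⟩
  loopless := ⟨fun a h => h.1 rfl⟩

lemma ds_adj_of {G : SimpleGraph V} {u a : V} (φ : G ≃g G) (hφ : G.Adj u (φ u)) (hne : a ≠ φ a) :
    (dsGamma G u).Adj a (φ a) :=
  ⟨hne, Or.inl ⟨φ, hφ, rfl⟩⟩

lemma ds_reach_of {G : SimpleGraph V} {u : V} (φ : G ≃g G) (hφ : G.Adj u (φ u)) (a : V) :
    (dsGamma G u).Reachable a (φ a) := by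
  by_cases h : a = φ a
  · rw [← h]
  · exact (ds_adj_of φ hφ h).reachable

lemma ds_symm_adj {G : SimpleGraph V} {u : V} (φ : G ≃g G) (hφ : G.Adj u (φ u)) :
    G.Adj u (φ.symm u) := by
  have h : G.Adj (φ.symm u) (φ.symm (φ u)) := φ.symm.map_adj_iff.2 hφ
  rw [φ.symm_apply_apply] at h
  exact h.symm

/-- the transport property -/
def dsQ (G : SimpleGraph V) (u a : V) : Prop :=
  ∃ h : G ≃g G, h u = a ∧ ∀ c, (dsGamma G u).Reachable c (h c)

lemma ds_step {G : SimpleGraph V} (htrans : ∀ a b : V, ∃ φ : G ≃g G, φ a = b) {u a b : V}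
    (ha : dsQ G u a) (hab : G.Adj a b) : dsQ G u b := by
  obtain ⟨h, rfl, hr⟩ := ha
  obtain ⟨φ, hφ⟩ := htrans u (h.symm b)
  have hadj : G.Adj u (φ u) := by
    rw [hφ]
    have h1 : G.Adj (h.symm (h u)) (h.symm b) := h.symm.map_adj_iff.2 hab
    rwa [h.symm_apply_apply] at h1
  refine ⟨φ.trans h, ?_, fun c => ?_⟩
  · change h (φ u) = b
    rw [hφ, h.apply_symm_apply]
  · exact (ds_reach_of φ hadj c).trans (hr (φ c))

lemma ds_walk {G : SimpleGraph V} (htrans : ∀ a b : V, ∃ φ : G ≃g G, φ a = b) (u : V) {x y : V}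
    (p : G.Walk x y) : dsQ G u x → dsQ G u y := by
  induction p with
  | nil => exact id
  | cons hadj _ ih => exact fun hx => ih (ds_step htrans hx hadj)

lemma ds_connected {G : SimpleGraph V} (hconn : G.Connected)
    (htrans : ∀ a b : V, ∃ φ : G ≃g G, φ a = b) (u : V) : (dsGamma G u).Connected := by
  have hreach : ∀ a, (dsGamma G u).Reachable u a := by
    intro a
    obtain ⟨p⟩ := hconn.preconnected u a
    obtain ⟨h, rfl, hr⟩ := ds_walk htrans u p ⟨RelIso.refl _, rfl, fun _ => SimpleGraph.Reachable.refl _⟩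
    exact hr u
  have : Nonempty V := ⟨u⟩
  exact ⟨fun a b => (hreach a).symm.trans (hreach b)⟩

theorem exists_dist (G : SimpleGraph V) (hconn : G.Connected)
    (htrans : ∀ a b : V, ∃ φ : G ≃g G, φ a = b) (u : V) :
    ∃ d : V → ℕ, (∀ v, d v < Fintype.card V) ∧ d u = 0 ∧ (∀ v, d v = 0 → v = u) ∧
      (∀ v, d v = 1 → G.Adj u v) ∧ (∀ v, G.Adj u v → d v ≤ 1) ∧
      ∀ v, 2 ≤ d v → ∃ φ : G ≃g G, G.Adj u (φ u) ∧ φ v ≠ v ∧ d (φ v) + 1 = d v ∧
        d (φ.symm v) ≤ d v + 1 := by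
  classical
  have hΓ := ds_connected hconn htrans u
  set Γ := dsGamma G u with hΓdef
  -- automorphisms moving `a` to `b`, with the right direction
  have hdir : ∀ a b, Γ.Adj a b → ∃ φ : G ≃g G, G.Adj u (φ u) ∧ φ a = b := by
    rintro a b ⟨_, h | ⟨φ, hφ, hb⟩⟩
    · exact h
    · refine ⟨φ.symm, ds_symm_adj φ hφ, ?_⟩
      rw [← hb, φ.symm_apply_apply]
  refine ⟨fun v => Γ.dist u v, fun v => ?_, SimpleGraph.dist_self, fun v hv => ?_, fun v hv => ?_,
    fun v hv => ?_, fun v hv => ?_⟩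
  · obtain ⟨p, hp, hl⟩ := (hΓ.preconnected u v).exists_path_of_dist
    change Γ.dist u v < _
    rw [← hl]
    exact hp.length_lt
  · exact (hΓ.dist_eq_zero_iff.1 hv).symm
  · obtain ⟨φ, hφ, rfl⟩ := hdir u v (SimpleGraph.dist_eq_one_iff_adj.1 hv)
    exact hφ
  · obtain ⟨φ, hφ⟩ := htrans u v
    have hadj : Γ.Adj u v := ⟨hv.ne, Or.inl ⟨φ, by rw [hφ]; exact hv, hφ⟩⟩
    exact (SimpleGraph.dist_eq_one_iff_adj.2 hadj).le
  · -- a geodesic neighbour
    obtain ⟨p, hl⟩ := hΓ.exists_walk_length_eq_dist v u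
    have hd : Γ.dist v u = Γ.dist u v := SimpleGraph.dist_comm
    cases p with
    | nil => 
      simp only [SimpleGraph.dist_self] at hv
      omega
    | cons hadj q =>
      rename_i w
      obtain ⟨φ, hφ, hw⟩ := hdir _ _ hadj
      have hq : Γ.dist w u ≤ q.length := SimpleGraph.dist_le q
      have hlen : (SimpleGraph.Walk.cons hadj q).length = q.length + 1 := SimpleGraph.Walk.length_cons _ _
      have hwd : Γ.dist w u = Γ.dist u w := SimpleGraph.dist_comm
      have htri : Γ.dist u v ≤ Γ.dist u w + Γ.dist w v := hΓ.dist_triangle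
      have h1 : Γ.dist w v = 1 := SimpleGraph.dist_eq_one_iff_adj.2 hadj.symm
      refine ⟨φ, hφ, ?_, ?_, ?_⟩
      · rw [hw]; exact hadj.ne.symm
      · rw [hw]
        simp only
        omega
      · simp only
        by_cases hz : φ.symm v = v
        · rw [hz]; omega
        · have hadj2 : Γ.Adj v (φ.symm v) := ⟨fun e => hz e.symm, Or.inl ⟨φ.symm, ds_symm_adj φ hφ, rfl⟩⟩
          have h2 : Γ.dist v (φ.symm v) = 1 := SimpleGraph.dist_eq_one_iff_adj.2 hadj2
          have htri2 : Γ.dist u (φ.symm v) ≤ Γ.dist u v + Γ.dist v (φ.symm v) := hΓ.dist_triangle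
          omega

end Vale.Agent.Lib.P308
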