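import Vale.Agent.Lib.P308.Defs

/-!
# Expansion of the matching count along a vertex
-/

namespace Vale.Agent.Lib.P308

variable {V : Type*} [Fintype V] [DecidableEq V]

theorem ze_mem_holes (G : SimpleGraph V) [DecidableRel G.Adj] (S : Finset V) (m : V → V) :
    m ∈ holes G S ↔ (∀ v, m (m v) = v) ∧ (∀ v, m v = v ↔ v ∈ S) ∧ ∀ v, v ∉ S → G.Adj v (m v) := by
  simp [holes]

/-- Expansion along a covered vertex `t`: classify by the partner `a = m t`.  The bijection is
`m ↦ update (update m t t) a a`. -/
theorem Z_expand (G : SimpleGraph V) [DecidableRel G.Adj] (S : Finset V) (t : V) (ht : t ∉ S) :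
    Z G S = ∑ a ∈ G.neighborFinset t \ S, Z G (insert a (insert t S)) := by
  classical
  unfold Z
  have hmaps : ∀ m ∈ holes G S, m t ∈ G.neighborFinset t \ S := by
    intro m hm
    obtain ⟨h1, h2, h3⟩ := (ze_mem_holes G S m).mp hm
    refine Finset.mem_sdiff.mpr ⟨(SimpleGraph.mem_neighborFinset G t _).mpr (h3 t ht), ?_⟩
    intro hmem
    have h4 : m (m t) = m t := (h2 (m t)).mpr hmem
    rw [h1] at h4
    exact ht ((h2 t).mp h4.symm)
  rw [Finset.card_eq_sum_card_fiberwise hmaps]
  refine Finset.sum_congr rfl (fun a ha => ?_)
  obtain ⟨hadj, haS⟩ := Finset.mem_sdiff.mp ha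
  have hadj' : G.Adj t a := (SimpleGraph.mem_neighborFinset G t a).mp hadj
  have hne : a ≠ t := (G.ne_of_adj hadj').symm
  refine Finset.card_bij'
    (fun m _ => fun v => if v = t ∨ v = a then v else m v)
    (fun m _ => fun v => if v = t then a else if v = a then t else m v)
    ?_ ?_ ?_ ?_
  · -- forward map lands in the holes of the bigger set
    intro m hm
    obtain ⟨hm1, hmt⟩ := Finset.mem_filter.mp hm
    obtain ⟨h1, h2, h3⟩ := (ze_mem_holes G S m).mp hm1
    have hma : m a = t := by rw [← hmt, h1]
    refine (ze_mem_holes G _ _).mpr ⟨?_, ?_, ?_⟩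
    · intro v
      by_cases hv : v = t ∨ v = a
      · simp [hv]
      · have hv1 : v ≠ t := fun h => hv (Or.inl h)
        have hv2 : v ≠ a := fun h => hv (Or.inr h)
        have h5 : m v ≠ t := by
          intro h
          apply hv2
          rw [← h1 v, h, hmt]
        have h6 : m v ≠ a := by
          intro h
          apply hv1
          rw [← h1 v, h, hma]
        simp [hv1, hv2, h5, h6, h1]
    · intro v
      by_cases hv : v = t ∨ v = a
      · simp only [hv, if_true, Finset.mem_insert, true_iff]
        rcases hv with hv | hv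
        · exact Or.inr (Or.inl hv)
        · exact Or.inl hv
      · have hv1 : v ≠ t := fun h => hv (Or.inl h)
        have hv2 : v ≠ a := fun h => hv (Or.inr h)
        simp [hv1, hv2, h2]
    · intro v hv
      have hv2 : v ≠ a := fun h => hv (by simp [h])
      have hv1 : v ≠ t := fun h => hv (by simp [h])
      have hv3 : v ∉ S := fun h => hv (by simp [h])
      simp only [hv1, hv2, or_self, if_false]
      exact h3 v hv3
  · -- backward map lands in the holes of S with partner a
    intro m hm
    obtain ⟨h1, h2, h3⟩ := (ze_mem_holes G _ m).mp hm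
    have hmt : m t = t := (h2 t).mpr (by simp)
    have hma : m a = a := (h2 a).mpr (by simp)
    refine Finset.mem_filter.mpr ⟨(ze_mem_holes G S _).mpr ⟨?_, ?_, ?_⟩, by simp⟩
    · intro v
      by_cases hv1 : v = t
      · subst hv1; simp [hne]
      · by_cases hv2 : v = a
        · subst hv2; simp [hne]
        · have h5 : m v ≠ t := by
            intro h
            apply hv1
            rw [← h1 v, h, hmt]
          have h6 : m v ≠ a := by
            intro h
            apply hv2
            rw [← h1 v, h, hma]
          simp [hv1, hv2, h5, h6, h1]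
    · intro v
      by_cases hv1 : v = t
      · subst hv1; simp [hne, ht]
      · by_cases hv2 : v = a
        · subst hv2; simp [hne.symm, haS, hne]
        · simp only [hv1, hv2, if_false, h2, Finset.mem_insert, false_or]
    · intro v hv
      by_cases hv1 : v = t
      · subst hv1; simpa using hadj'
      · by_cases hv2 : v = a
        · subst hv2
          simp only [hne, if_false, if_true]
          exact hadj'.symm
        · simp only [hv1, hv2, if_false]
          refine h3 v ?_
          simp [hv1, hv2, hv]
  · -- left inverse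
    intro m hm
    obtain ⟨hm1, hmt⟩ := Finset.mem_filter.mp hm
    obtain ⟨h1, h2, h3⟩ := (ze_mem_holes G S m).mp hm1
    have hma : m a = t := by rw [← hmt, h1]
    funext v
    by_cases hv1 : v = t
    · subst hv1; simp [hmt]
    · by_cases hv2 : v = a
      · subst hv2; simp [hv1, hma]
      · simp [hv1, hv2]
  · -- right inverse
    intro m hm
    obtain ⟨h1, h2, h3⟩ := (ze_mem_holes G _ m).mp hm
    have hmt : m t = t := (h2 t).mpr (by simp)
    have hma : m a = a := (h2 a).mpr (by simp)
    funext v
    by_cases hv1 : v = t
    · subst hv1; simp [hmt]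
    · by_cases hv2 : v = a
      · subst hv2; simp [hv1, hma]
      · simp [hv1, hv2]

/-- An edge can be added to a matching. -/
theorem Z_adj_le (G : SimpleGraph V) [DecidableRel G.Adj] (S : Finset V) (t a : V) (ht : t ∉ S)
    (ha : a ∉ S) (hadj : G.Adj t a) : Z G (insert a (insert t S)) ≤ Z G S := by
  rw [Z_expand G S t ht]
  exact Finset.single_le_sum (f := fun a => Z G (insert a (insert t S)))
    (fun _ _ => Nat.zero_le _)
    (Finset.mem_sdiff.mpr ⟨(SimpleGraph.mem_neighborFinset G t a).mpr hadj, ha⟩)

end Vale.Agent.Lib.P308
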