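import Mathlib

/-!
# A discrete maximum principle

`a` is almost subharmonic along the level function `d`, so it is controlled by its values on level 1.
Comparison function: `w k = K * (k-1) * (2 n - (k-1))`, with
`w k = K + (w (k-1) + w (k+1)) / 2`, `w` increasing for `k ≤ n`, `w 1 = 0`, `w k ≤ K * n ^ 2`.
Take the maximum `m` of `a v - w (d v)` over `{v | 1 ≤ d v}`; by induction on `k`, a maximiser at level
`k` gives `m ≤ Zr`: for `k ≥ 2`, `(a-w) v ≤ ((a-w) v₁ + (a-w) v₂)/2` forces `v₁` to be a maximiser.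
-/

namespace Vale.Agent.Lib.P308

theorem max_bound {V : Type*} [Finite V] (d : V → ℕ) (a : V → ℝ) (Zr K : ℝ) (n : ℕ)
    (hK : 0 ≤ K) (hd : ∀ v, d v < n) (h1 : ∀ v, d v = 1 → a v ≤ Zr)
    (hstep : ∀ v, 2 ≤ d v → ∃ v₁ v₂, d v₁ + 1 = d v ∧ 1 ≤ d v₂ ∧ d v₂ ≤ d v + 1 ∧
      a v ≤ K + (a v₁ + a v₂) / 2) :
    ∀ v, 1 ≤ d v → a v ≤ Zr + K * (n : ℝ) ^ 2 := by
  intro v0 hv0
  -- the comparison function in the variable `j = k - 1`
  obtain ⟨W, hW⟩ : ∃ W : ℝ → ℝ, W = fun j => K * j * (2 * (n : ℝ) - j) := ⟨_, rfl⟩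
  have hWid : ∀ j : ℝ, K + (W (j - 1) + W (j + 1)) / 2 = W j := by
    intro j
    rw [hW]
    ring
  have hWmono : ∀ j j' : ℝ, j ≤ j' → j' ≤ n → 0 ≤ j → W j ≤ W j' := by
    intro j j' h1 h2 h3
    rw [hW]
    have hnn : 0 ≤ K * ((j' - j) * (2 * (n : ℝ) - j' - j)) := by
      apply mul_nonneg hK
      apply mul_nonneg (by linarith)
      linarith
    simp only
    nlinarith
  have hWle : ∀ j : ℝ, W j ≤ K * (n : ℝ) ^ 2 := by
    intro j
    rw [hW]
    have : 0 ≤ K * ((n : ℝ) - j) ^ 2 := mul_nonneg hK (sq_nonneg _)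
    simp only
    nlinarith
  have hW0 : W 0 = 0 := by rw [hW]; simp
  -- the maximiser
  obtain ⟨b, hb⟩ : ∃ b : V → ℝ, b = fun v => a v - W ((d v : ℝ) - 1) := ⟨_, rfl⟩
  have hbe : ∀ v, a v = b v + W ((d v : ℝ) - 1) := by
    intro v
    rw [hb]
    ring
  haveI : Nonempty { v // 1 ≤ d v } := ⟨⟨v0, hv0⟩⟩
  obtain ⟨⟨vm, hvm⟩, hmax⟩ := Finite.exists_max (fun v : { v // 1 ≤ d v } => b v.1)
  have hmax' : ∀ v, 1 ≤ d v → b v ≤ b vm := fun v hv => hmax ⟨v, hv⟩
  -- a maximiser at level `k + 1` gives the bound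
  have hkey : ∀ k : ℕ, ∀ v, d v = k + 1 → b v = b vm → b vm ≤ Zr := by
    intro k
    induction k with
    | zero =>
      intro v hv hbv
      have h2 : a v ≤ Zr := h1 v hv
      have h3 := hbe v
      rw [hv] at h3
      have h4 : W (((0 + 1 : ℕ) : ℝ) - 1) = 0 := by
        rw [← hW0]
        congr 1
        norm_num
      rw [h4] at h3
      linarith
    | succ k ih =>
      intro v hv hbv
      obtain ⟨v₁, v₂, h11, h12, h13, h14⟩ := hstep v (by omega)
      have hd1 : d v₁ = k + 1 := by omega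
      apply ih v₁ hd1
      have hm1 := hmax' v₁ (by omega)
      have hm2 := hmax' v₂ h12
      have hj : ((d v : ℕ) : ℝ) - 1 = (k : ℝ) + 1 := by
        rw [hv]; push_cast; ring
      have hj1 : ((d v₁ : ℕ) : ℝ) - 1 = (k : ℝ) := by
        rw [hd1]; push_cast; ring
      have hdn : (d v : ℝ) + 1 ≤ n := by
        have := hd v
        exact_mod_cast this
      have hv2a : ((d v₂ : ℕ) : ℝ) - 1 ≤ (k : ℝ) + 1 + 1 := by
        have : ((d v₂ : ℕ) : ℝ) ≤ ((d v : ℕ) : ℝ) + 1 := by exact_mod_cast h13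
        linarith
      have hv2b : (0 : ℝ) ≤ ((d v₂ : ℕ) : ℝ) - 1 := by
        have : (1 : ℝ) ≤ ((d v₂ : ℕ) : ℝ) := by exact_mod_cast h12
        linarith
      have hknn : ((k : ℝ) + 1 + 1) ≤ n := by linarith
      have hW2 := hWmono _ _ hv2a hknn hv2b
      have e0 := hbe v
      have e1 := hbe v₁
      have e2 := hbe v₂
      rw [hj] at e0
      rw [hj1] at e1
      have hid := hWid ((k : ℝ) + 1)
      have e3 : (k : ℝ) + 1 - 1 = k := by ring
      rw [e3] at hid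
      rw [e0, e1, e2, hbv] at h14
      linarith
  have hvmZ : b vm ≤ Zr := by
    obtain ⟨k, hk⟩ : ∃ k, d vm = k + 1 := ⟨d vm - 1, by omega⟩
    exact hkey k vm hk rfl
  have hfin := hbe v0
  rw [hfin]
  have := hmax' v0 hv0
  have h5 := hWle ((d v0 : ℝ) - 1)
  linarith

end Vale.Agent.Lib.P308
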