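import Vale.Agent.Lib.P308.Defs

/-!
# Near-perfect matchings are the union over pairs of holes
-/

namespace Vale.Agent.Lib.P308

variable {V : Type*} [Fintype V] [DecidableEq V]

/-- If every `Z G {u,v}` with `u ≠ v` is at most `C`, there are at most `n^2 * C` near-perfect
matchings: each one lies in `holes G {u,v}` for its two fixed points `u ≠ v`. -/
theorem near_card_le (G : SimpleGraph V) [DecidableRel G.Adj] (C : ℕ)
    (h : ∀ u v : V, u ≠ v → Z G {u, v} ≤ C) :
    (nearPerfect G).card ≤ Fintype.card V ^ 2 * C := by
  classical
  set s : Finset (V × V) := Finset.univ.filter (fun p => p.1 ≠ p.2) with hs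
  have hsub : nearPerfect G ⊆ s.biUnion (fun p => holes G {p.1, p.2}) := by
    intro m hm
    simp only [nearPerfect, Finset.mem_filter, Finset.mem_univ, true_and] at hm
    obtain ⟨h1, h2, h3⟩ := hm
    obtain ⟨u, v, huv, hfix⟩ := Finset.card_eq_two.mp h2
    refine Finset.mem_biUnion.mpr ⟨(u, v), ?_, ?_⟩
    · simp [hs, huv]
    · simp only [holes, Finset.mem_filter, Finset.mem_univ, true_and]
      refine ⟨h1, ?_, ?_⟩
      · intro w
        have : w ∈ (Finset.univ.filter fun v => m v = v) ↔ w ∈ ({u, v} : Finset V) := by
          rw [hfix]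
        simpa using this
      · intro w hw
        apply h3
        intro hc
        apply hw
        have : w ∈ (Finset.univ.filter fun v => m v = v) := by simp [hc]
        rw [hfix] at this
        exact this
  have hle : (s.biUnion (fun p => holes G {p.1, p.2})).card ≤ s.card * C := by
    apply Finset.card_biUnion_le_card_mul
    intro p hp
    have hp' : p.1 ≠ p.2 := by simpa [hs] using hp
    exact h p.1 p.2 hp'
  have hcard : s.card ≤ Fintype.card V ^ 2 := by
    calc s.card ≤ (Finset.univ : Finset (V × V)).card := Finset.card_filter_le _ _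
      _ = Fintype.card V ^ 2 := by
          rw [Finset.card_univ, Fintype.card_prod, sq]
  calc (nearPerfect G).card ≤ (s.biUnion (fun p => holes G {p.1, p.2})).card :=
        Finset.card_le_card hsub
    _ ≤ s.card * C := hle
    _ ≤ Fintype.card V ^ 2 * C := Nat.mul_le_mul_right _ hcard

end Vale.Agent.Lib.P308
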