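import Vale.Agent.Lib.P308.Four
import Vale.Agent.Lib.P308.Aut
import Vale.Agent.Lib.P308.Dist
import Vale.Agent.Lib.P308.Max
import Vale.Agent.Lib.P308.Near

/-!
# Vertex-transitive graphs: near-perfect matchings versus perfect matchings
-/

namespace Vale.Agent.Lib.P308

variable {V : Type*} [Fintype V] [DecidableEq V]

/-- Pairs of holes are moved by automorphisms. -/
theorem Z_pair_image (G : SimpleGraph V) [DecidableRel G.Adj] (φ : G ≃g G) (a b : V) :
    Z G {φ a, φ b} = Z G {a, b} := by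
  have h := Z_image G φ {a, b}
  rwa [Finset.image_insert, Finset.image_singleton] at h

/-- A hole pair along an edge: at most the number of perfect matchings. -/
theorem Z_pair_adj_le (G : SimpleGraph V) [DecidableRel G.Adj] (a b : V) (h : G.Adj a b) :
    Z G {a, b} ≤ Z G ∅ := by
  have h1 := Z_adj_le G ∅ a b (by simp) (by simp) h
  have e : (insert b (insert a ∅) : Finset V) = {a, b} := by
    ext z
    simp only [Finset.mem_insert, Finset.notMem_empty, or_false, Finset.mem_singleton]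
    tauto
  rwa [e] at h1

/-- Key inequality from `four_point` with `(x,y) = (φ u, φ v)`. -/
theorem key_ineq (G : SimpleGraph V) [DecidableRel G.Adj] (φ : G ≃g G) (u v : V)
    (hadj : G.Adj u (φ u)) (hvu : v ≠ u) (hv1 : v ≠ φ u) (hv2 : φ v ≠ u) (hv3 : φ v ≠ v) :
    Z G {u, v} * Z G {u, v} ≤ 2 * Z G ∅ * Z G {v, φ v} + Z G {u, φ v} * Z G {u, φ.symm v} := by
  have hux : u ≠ φ u := hadj.ne
  have hxy : φ u ≠ φ v := fun h => hvu (φ.injective h).symm
  have h4 := four_point G ∅ u v (φ u) (φ v) (by simp) (by simp) (by simp) (by simp)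
    hvu.symm hux (Ne.symm hv2) hv1 (Ne.symm hv3) hxy
  have e0 : ∀ a b : V, (insert a (insert b ∅) : Finset V) = {a, b} := by
    intro a b
    rfl
  simp only [e0] at h4
  have h1 : Z G {φ u, φ v} = Z G {u, v} := Z_pair_image G φ u v
  have h2 : Z G (insert u (insert v {φ u, φ v})) ≤ Z G {v, φ v} := by
    have := Z_adj_le G {v, φ v} u (φ u) (by simp [hvu.symm, Ne.symm hv2])
      (by simp [Ne.symm hv1, hxy]) hadj
    have e : (insert (φ u) (insert u {v, φ v}) : Finset V) = insert u (insert v {φ u, φ v}) := by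
      ext z
      simp only [Finset.mem_insert, Finset.mem_singleton]
      tauto
    rwa [e] at this
  have h3 : Z G {u, φ u} ≤ Z G ∅ := Z_pair_adj_le G u (φ u) hadj
  have h5 : Z G {v, φ u} = Z G {u, φ.symm v} := by
    have := Z_pair_image G φ (φ.symm v) u
    rw [RelIso.apply_symm_apply] at this
    rw [this]
    congr 1
    ext z
    simp only [Finset.mem_insert, Finset.mem_singleton]
    tauto
  rw [h1, h5] at h4
  calc Z G {u, v} * Z G {u, v}
      ≤ Z G ∅ * Z G (insert u (insert v {φ u, φ v})) + Z G {u, φ u} * Z G {v, φ v}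
          + Z G {u, φ v} * Z G {u, φ.symm v} := h4
    _ ≤ Z G ∅ * Z G {v, φ v} + Z G ∅ * Z G {v, φ v} + Z G {u, φ v} * Z G {u, φ.symm v} := by
        gcongr
    _ = 2 * Z G ∅ * Z G {v, φ v} + Z G {u, φ v} * Z G {u, φ.symm v} := by ring

/-- The algebra at the end. -/
theorem final_algebra (M Zr K : ℝ) (n : ℕ) (hn : 1 ≤ n) (hZ : 0 ≤ Zr)
    (hK : K ^ 2 = 2 * Zr * M) (h : M ≤ Zr + K * (n : ℝ) ^ 2) :
    M ≤ 4 * (n : ℝ) ^ 4 * Zr := by
  by_contra hc
  push Not at hc
  have hn' : (1 : ℝ) ≤ (n : ℝ) := by exact_mod_cast hn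
  have hn2 : (1 : ℝ) ≤ (n : ℝ) ^ 2 := one_le_pow₀ hn'
  have hn4 : (n : ℝ) ^ 4 = ((n : ℝ) ^ 2) ^ 2 := by ring
  have hN4 : (1 : ℝ) ≤ (n : ℝ) ^ 4 := one_le_pow₀ hn'
  have hMZ : 4 * Zr ≤ M := by nlinarith
  have hMpos : 0 < M := lt_of_le_of_lt (by positivity) hc
  -- `M - Z ≥ 3 M / 4`
  have h1 : 3 / 4 * M ≤ K * (n : ℝ) ^ 2 := by linarith
  have h2 : (3 / 4 * M) ^ 2 ≤ (K * (n : ℝ) ^ 2) ^ 2 :=
    pow_le_pow_left₀ (by positivity) h1 2
  have h3 : (K * (n : ℝ) ^ 2) ^ 2 = 2 * Zr * M * (n : ℝ) ^ 4 := by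
    rw [mul_pow, hK]
    ring
  rw [h3] at h2
  have h4 : 9 / 16 * M ≤ 2 * Zr * (n : ℝ) ^ 4 := by
    have : M * (9 / 16 * M) ≤ M * (2 * Zr * (n : ℝ) ^ 4) := by nlinarith
    exact le_of_mul_le_mul_left this hMpos
  nlinarith

/-- The main bound: holes at any two vertices. -/
theorem pair_bound (G : SimpleGraph V) [DecidableRel G.Adj] (hconn : G.Connected)
    (htrans : ∀ a b : V, ∃ φ : G ≃g G, φ a = b) (u v : V) (huv : u ≠ v) :
    Z G {u, v} ≤ 4 * Fintype.card V ^ 4 * Z G ∅ := by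
  classical
  -- a maximal pair
  let P : Finset (V × V) := Finset.univ.filter fun p => p.1 ≠ p.2
  have hP : P.Nonempty := ⟨(u, v), by simp [P, huv]⟩
  obtain ⟨p0, hp0, hmax⟩ := Finset.exists_max_image P (fun p => Z G {p.1, p.2}) hP
  obtain ⟨u0, v0⟩ := p0
  have hne0 : u0 ≠ v0 := by simpa [P] using hp0
  have hmax' : ∀ a b : V, a ≠ b → Z G {a, b} ≤ Z G {u0, v0} := fun a b hab =>
    hmax (a, b) (by simp [P, hab])
  suffices hM : Z G {u0, v0} ≤ 4 * Fintype.card V ^ 4 * Z G ∅ from (hmax' u v huv).trans hM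
  obtain ⟨d, hdn, hdu, hd0, hd1, hdadj, hdstep⟩ := exists_dist G hconn htrans u0
  set Zr : ℝ := (Z G ∅ : ℝ) with hZr
  set M : ℝ := (Z G {u0, v0} : ℝ) with hM
  have hZ0 : 0 ≤ Zr := Nat.cast_nonneg _
  have hM0 : 0 ≤ M := Nat.cast_nonneg _
  let K : ℝ := Real.sqrt (2 * Zr * M)
  have hK0 : 0 ≤ K := Real.sqrt_nonneg _
  have hK2 : K ^ 2 = 2 * Zr * M := Real.sq_sqrt (by positivity)
  let a : V → ℝ := fun w => (Z G {u0, w} : ℝ)
  have ha0 : ∀ w, 0 ≤ a w := fun w => Nat.cast_nonneg _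
  have hcard : 1 ≤ Fintype.card V := Fintype.card_pos_iff.mpr ⟨u0⟩
  have hb := max_bound d a Zr K (Fintype.card V) hK0 hdn
    (fun w hw => by
      have := Z_pair_adj_le G u0 w (hd1 w hw)
      exact Nat.cast_le.mpr this)
    (fun w hw => by
      obtain ⟨φ, hadj, hmove, hd', hd''⟩ := hdstep w hw
      have hsymm : 1 ≤ d (φ.symm w) := by
        rcases Nat.eq_zero_or_pos (d (φ.symm w)) with h | h
        · have h' := hd0 _ h
          have h'' : w = φ u0 := by rw [← h']; exact (φ.apply_symm_apply w).symm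
          have := hdadj _ hadj
          rw [← h''] at this
          omega
        · exact h
      refine ⟨φ w, φ.symm w, hd', hsymm, hd'', ?_⟩
      have hwu : w ≠ u0 := by
        rintro rfl
        omega
      have hw1 : w ≠ φ u0 := by
        rintro rfl
        have := hdadj _ hadj
        omega
      have hw2 : φ w ≠ u0 := by
        intro h
        have h' : G.Adj u0 w := by
          have hadj' : G.Adj (φ w) (φ u0) := by rw [h]; exact hadj
          have := φ.map_rel_iff.mp hadj'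
          exact this.symm
        have := hdadj _ h'
        omega
      have hkey := key_ineq G φ u0 w hadj hwu hw1 hw2 hmove
      have hmaxw : Z G {w, φ w} ≤ Z G {u0, v0} := hmax' w (φ w) (Ne.symm hmove)
      have hkeyR : a w * a w ≤ 2 * Zr * (Z G {w, φ w} : ℝ) + a (φ w) * a (φ.symm w) := by
        have : ((Z G {u0, w} * Z G {u0, w} : ℕ) : ℝ) ≤
            ((2 * Z G ∅ * Z G {w, φ w} + Z G {u0, φ w} * Z G {u0, φ.symm w} : ℕ) : ℝ) := by
          exact_mod_cast hkey
        push_cast at this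
        exact this
      have hmaxR : (Z G {w, φ w} : ℝ) ≤ M := Nat.cast_le.mpr hmaxw
      have h1 : a w * a w ≤ K ^ 2 + a (φ w) * a (φ.symm w) := by
        rw [hK2]
        nlinarith
      have h2 := ha0 w
      have h3 := ha0 (φ w)
      have h4 := ha0 (φ.symm w)
      by_contra hcon
      push Not at hcon
      have h5 : 0 ≤ K + (a (φ w) + a (φ.symm w)) / 2 := by positivity
      have h6 : (K + (a (φ w) + a (φ.symm w)) / 2) * (K + (a (φ w) + a (φ.symm w)) / 2) <
          a w * a w := mul_self_lt_mul_self h5 hcon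
      nlinarith [sq_nonneg (a (φ w) - a (φ.symm w)), mul_nonneg hK0 h3, mul_nonneg hK0 h4])
  have hv0 : 1 ≤ d v0 := by
    rcases Nat.eq_zero_or_pos (d v0) with h | h
    · exact absurd (hd0 v0 h).symm hne0
    · exact h
  have hfin := final_algebra M Zr K (Fintype.card V) hcard hZ0 hK2 (hb v0 hv0)
  have : ((Z G {u0, v0} : ℕ) : ℝ) ≤ ((4 * Fintype.card V ^ 4 * Z G ∅ : ℕ) : ℝ) := by
    push_cast
    exact hfin
  exact_mod_cast this

/-- Vertex-transitive graphs: at most `4 n ^ 6` near-perfect matchings per perfect matching. -/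
theorem near_bound (G : SimpleGraph V) [DecidableRel G.Adj] (hconn : G.Connected)
    (htrans : ∀ a b : V, ∃ φ : G ≃g G, φ a = b) :
    (nearPerfect G).card ≤ 4 * Fintype.card V ^ 6 * Z G ∅ := by
  have h := near_card_le G (4 * Fintype.card V ^ 4 * Z G ∅) (pair_bound G hconn htrans)
  calc (nearPerfect G).card ≤ Fintype.card V ^ 2 * (4 * Fintype.card V ^ 4 * Z G ∅) := h
    _ = 4 * Fintype.card V ^ 6 * Z G ∅ := by ring

end Vale.Agent.Lib.P308
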