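import Vale.Agent.Lib.P308.Expand

/-!
# The four-point inequality for matching counts

Proof by strong induction on the number of vertices outside `W`, only from `Z_expand`.  Write
`W' = W ∪ {u,x}`.  Expand `Z(W∪{u,v})` at `x` (partner `a ∉ W∪{u,v}`) and `Z(W∪{x,y})` at `u`
(partner `b ∉ W∪{x,y}`).  The product is the sum over `(a,b)` of `Z(W'∪{v,a}) * Z(W'∪{y,b})`.
Pointwise bound of a term by `t1 + t2 + t3` with
* `t1 a b = if a,b,v,y pairwise distinct then Z(W') * Z(W'∪{v,a,y,b}) else 0`,
* `t2 a b = if a ≠ b then Z(W'∪{v,y}) * Z(W'∪{a,b}) else 0`,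
* `t3 a b = if a ≠ y ∧ b ≠ v then Z(W'∪{v,b}) * Z(W'∪{a,y}) else 0`:
if `a = y` or `b = v` then the term equals `t2`; if `a = b` (and `a ≠ y`, `b ≠ v`) it equals `t3`;
otherwise apply the induction hypothesis in `W'` to `(v,a),(y,b)`.
Summing: `∑ t1 ≤ Z(W') * Z(W∪{v,y})` (expand `Z(W∪{v,y})` at `x`, then at `u`, drop partner `u` of `x`);
`∑ t2 ≤ Z(W'∪{v,y}) * Z(W)` (expand `Z(W)` at `x`, then at `u`, drop partner `u` of `x`);
`∑ t3 ≤ Z(W∪{x,v}) * Z(W∪{u,y})` (it factors; expand `Z(W∪{x,v})` at `u`, `Z(W∪{u,y})` at `x`).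
-/

namespace Vale.Agent.Lib.P308

variable {V : Type*} [Fintype V] [DecidableEq V]

private theorem fp_sum_le {ι : Type*} [DecidableEq ι] (s t : Finset ι) (g f : ι → ℕ)
    (h : ∀ i ∈ s, g i ≠ 0 → i ∈ t ∧ g i ≤ f i) : ∑ i ∈ s, g i ≤ ∑ i ∈ t, f i := by
  rw [← Finset.sum_filter_ne_zero]
  calc ∑ i ∈ s with g i ≠ 0, g i
      ≤ ∑ i ∈ s with g i ≠ 0, f i := Finset.sum_le_sum (fun i hi =>
        (h i (Finset.mem_filter.1 hi).1 (Finset.mem_filter.1 hi).2).2)
    _ ≤ ∑ i ∈ t, f i := Finset.sum_le_sum_of_subset (fun i hi =>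
        (h i (Finset.mem_filter.1 hi).1 (Finset.mem_filter.1 hi).2).1)

private theorem fp_two (G : SimpleGraph V) [DecidableRel G.Adj] (S : Finset V) (x u : V)
    (hx : x ∉ S) (hu : u ∉ S) (hxu : x ≠ u) :
    ∑ a ∈ (G.neighborFinset x \ S).erase u, ∑ b ∈ G.neighborFinset u \ insert a (insert x S),
        Z G (insert b (insert u (insert a (insert x S)))) ≤ Z G S := by
  rw [Z_expand G S x hx]
  refine le_trans (le_of_eq ?_) (Finset.sum_le_sum_of_subset (Finset.erase_subset u _))
  refine Finset.sum_congr rfl (fun a ha => ?_)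
  have hau : a ≠ u := (Finset.mem_erase.1 ha).1
  have hu' : u ∉ insert a (insert x S) := by simp [hau.symm, hxu.symm, hu]
  exact (Z_expand G _ u hu').symm

private theorem fp_alg {ι : Type*} (A B : Finset ι) (α β p q : ι → ℕ) (c1 c2 E1 E2 E3 E4 : ℕ)
    (t1 t2 : ι → ι → ℕ)
    (h : ∀ a ∈ A, ∀ b ∈ B, α a * β b ≤ c1 * t1 a b + c2 * t2 a b + q b * p a)
    (D1 : ∑ a ∈ A, ∑ b ∈ B, t1 a b ≤ E1) (D2 : ∑ a ∈ A, ∑ b ∈ B, t2 a b ≤ E2)
    (D3 : ∑ b ∈ B, q b ≤ E3) (D4 : ∑ a ∈ A, p a ≤ E4) :
    (∑ a ∈ A, α a) * (∑ b ∈ B, β b) ≤ c1 * E1 + c2 * E2 + E3 * E4 := by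
  calc (∑ a ∈ A, α a) * (∑ b ∈ B, β b) = ∑ a ∈ A, ∑ b ∈ B, α a * β b := Finset.sum_mul_sum _ _ _ _
    _ ≤ ∑ a ∈ A, ∑ b ∈ B, (c1 * t1 a b + c2 * t2 a b + q b * p a) :=
        Finset.sum_le_sum (fun a ha => Finset.sum_le_sum (fun b hb => h a ha b hb))
    _ = c1 * (∑ a ∈ A, ∑ b ∈ B, t1 a b) + c2 * (∑ a ∈ A, ∑ b ∈ B, t2 a b)
          + (∑ b ∈ B, q b) * (∑ a ∈ A, p a) := by
        simp only [Finset.sum_add_distrib, Finset.mul_sum]
        congr 1
        rw [← Finset.mul_sum ]
        rw [Finset.sum_mul]
        rw [Finset.sum_comm]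
        exact Finset.sum_congr rfl (fun b _ => by rw [Finset.mul_sum])
    _ ≤ c1 * E1 + c2 * E2 + E3 * E4 := by gcongr

private theorem fp_e1 (W : Finset V) (u v x a : V) :
    insert a (insert x (insert u (insert v W))) = insert v (insert a (insert u (insert x W))) := by
  ext i; simp only [Finset.mem_insert]; tauto

private theorem fp_e2 (W : Finset V) (u x y a : V) :
    insert a (insert u (insert x (insert y W))) = insert y (insert a (insert u (insert x W))) := by
  ext i; simp only [Finset.mem_insert]; tauto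

private theorem fp_e3 (W : Finset V) (u v x y a b : V) :
    insert v (insert a (insert y (insert b (insert u (insert x W))))) =
      insert b (insert u (insert a (insert x (insert v (insert y W))))) := by
  ext i; simp only [Finset.mem_insert]; tauto

private theorem fp_e4 (W : Finset V) (u x a b : V) :
    insert a (insert b (insert u (insert x W))) = insert b (insert u (insert a (insert x W))) := by
  ext i; simp only [Finset.mem_insert]; tauto

private theorem fp_e5 (W : Finset V) (u v x b : V) :
    insert v (insert b (insert u (insert x W))) = insert b (insert u (insert x (insert v W))) := by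
  ext i; simp only [Finset.mem_insert]; tauto

private theorem fp_e6 (W : Finset V) (u x y a : V) :
    insert a (insert y (insert u (insert x W))) = insert a (insert x (insert u (insert y W))) := by
  ext i; simp only [Finset.mem_insert]; tauto

private theorem fp_e7 (W : Finset V) (u v x y : V) :
    insert v (insert y (insert u (insert x W))) = insert u (insert v (insert x (insert y W))) := by
  ext i; simp only [Finset.mem_insert]; tauto

private theorem fp_aux (G : SimpleGraph V) [DecidableRel G.Adj] : ∀ (k : ℕ) (W : Finset V)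
    (u v x y : V), u ∉ W → v ∉ W → x ∉ W → y ∉ W → u ≠ v → u ≠ x → u ≠ y → v ≠ x → v ≠ y → x ≠ y →
    (Finset.univ \ W).card ≤ k →
    Z G (insert u (insert v W)) * Z G (insert x (insert y W)) ≤
      Z G W * Z G (insert u (insert v (insert x (insert y W))))
        + Z G (insert u (insert x W)) * Z G (insert v (insert y W))
        + Z G (insert u (insert y W)) * Z G (insert v (insert x W)) := by
  intro k
  induction k with
  | zero =>
    intro W u v x y hu _ _ _ _ _ _ _ _ _ hk
    have : u ∈ Finset.univ \ W := by simp [hu]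
    have h0 : (Finset.univ \ W).card = 0 := by omega
    rw [Finset.card_eq_zero] at h0
    rw [h0] at this
    simp at this
  | succ k ih =>
    intro W u v x y hu hv hx hy huv hux huy hvx hvy hxy hk
    have hk' : (Finset.univ \ insert u (insert x W)).card ≤ k := by
      have hlt : (Finset.univ \ insert u (insert x W)).card < (Finset.univ \ W).card := by
        apply Finset.card_lt_card
        rw [Finset.ssubset_iff_of_subset]
        · exact ⟨u, by simp [hu], by simp⟩
        · intro i hi
          simp only [Finset.mem_sdiff, Finset.mem_univ, true_and, Finset.mem_insert,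
            not_or] at hi ⊢
          exact hi.2.2
      omega
    have hxS : x ∉ insert u (insert v W) := by simp [hux.symm, hvx.symm, hx]
    have huS : u ∉ insert x (insert y W) := by simp [hux, huy, hu]
    have e1 : Z G (insert u (insert v W)) =
        ∑ a ∈ G.neighborFinset x \ insert u (insert v W),
          Z G (insert v (insert a (insert u (insert x W)))) := by
      rw [Z_expand G _ x hxS]
      exact Finset.sum_congr rfl (fun a _ => by rw [fp_e1])
    have e2 : Z G (insert x (insert y W)) =
        ∑ b ∈ G.neighborFinset u \ insert x (insert y W),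
          Z G (insert y (insert b (insert u (insert x W)))) := by
      rw [Z_expand G _ u huS]
      exact Finset.sum_congr rfl (fun a _ => by rw [fp_e2])
    have hAmem : ∀ a ∈ G.neighborFinset x \ insert u (insert v W),
        G.Adj x a ∧ a ≠ u ∧ a ≠ v ∧ a ∉ W ∧ a ≠ x := by
      intro a ha
      simp only [Finset.mem_sdiff, SimpleGraph.mem_neighborFinset, Finset.mem_insert,
        not_or] at ha
      exact ⟨ha.1, ha.2.1, ha.2.2.1, ha.2.2.2, (G.ne_of_adj ha.1).symm⟩
    have hBmem : ∀ b ∈ G.neighborFinset u \ insert x (insert y W),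
        G.Adj u b ∧ b ≠ x ∧ b ≠ y ∧ b ∉ W ∧ b ≠ u := by
      intro b hb
      simp only [Finset.mem_sdiff, SimpleGraph.mem_neighborFinset, Finset.mem_insert,
        not_or] at hb
      exact ⟨hb.1, hb.2.1, hb.2.2.1, hb.2.2.2, (G.ne_of_adj hb.1).symm⟩
    generalize hA : G.neighborFinset x \ insert u (insert v W) = A at e1 hAmem
    generalize hB : G.neighborFinset u \ insert x (insert y W) = B at e2 hBmem
    -- the pointwise bound
    have hpt : ∀ a ∈ A, ∀ b ∈ B,
        Z G (insert v (insert a (insert u (insert x W)))) *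
            Z G (insert y (insert b (insert u (insert x W)))) ≤
          Z G (insert u (insert x W)) * (if a ≠ b ∧ a ≠ y ∧ b ≠ v then
              Z G (insert v (insert a (insert y (insert b (insert u (insert x W)))))) else 0)
          + Z G (insert v (insert y (insert u (insert x W)))) *
              (if a ≠ b then Z G (insert a (insert b (insert u (insert x W)))) else 0)
          + (if b ≠ v then Z G (insert v (insert b (insert u (insert x W)))) else 0) *
            (if a ≠ y then Z G (insert a (insert y (insert u (insert x W)))) else 0) := by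
      intro a ha b hb
      obtain ⟨_, hau, hav, haW, hax⟩ := hAmem a ha
      obtain ⟨_, hbx, hby, hbW, hbu⟩ := hBmem b hb
      have hvW' : v ∉ insert u (insert x W) := by simp [huv.symm, hvx, hv]
      have hyW' : y ∉ insert u (insert x W) := by simp [huy.symm, hxy.symm, hy]
      have haW' : a ∉ insert u (insert x W) := by simp [hau, hax, haW]
      have hbW' : b ∉ insert u (insert x W) := by simp [hbu, hbx, hbW]
      by_cases hay : a = y
      · have hab : a ≠ b := fun h => hby (by rw [← h, hay])
        rw [if_neg (show ¬(a ≠ b ∧ a ≠ y ∧ b ≠ v) from fun h => h.2.1 hay), if_pos hab,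
          if_neg (show ¬ a ≠ y from not_not.2 hay), hay]
        simp only [mul_zero, zero_add, add_zero, le_refl]
      by_cases hbv : b = v
      · have hab : a ≠ b := by rw [hbv]; exact hav
        rw [if_neg (show ¬(a ≠ b ∧ a ≠ y ∧ b ≠ v) from fun h => h.2.2 hbv), if_pos hab,
          if_neg (show ¬ b ≠ v from not_not.2 hbv), hbv,
          Finset.insert_comm y v, Finset.insert_comm a v]
        simp only [mul_zero, zero_mul, zero_add, add_zero]
        exact le_of_eq (mul_comm _ _)
      by_cases hab : a = b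
      · rw [if_neg (show ¬(a ≠ b ∧ a ≠ y ∧ b ≠ v) from fun h => h.1 hab),
          if_neg (show ¬ a ≠ b from not_not.2 hab), if_pos hbv, if_pos hay, ← hab,
          Finset.insert_comm y a]
        simp only [mul_zero, zero_add, le_refl]
      have hIH := ih (insert u (insert x W)) v a y b hvW' haW' hyW' hbW' (Ne.symm hav) hvy
        (fun h => hbv h.symm) hay hab (fun h => hby h.symm) hk'
      rw [if_pos ⟨hab, hay, hbv⟩, if_pos hab, if_pos hbv, if_pos hay]
      exact hIH
    -- sums
    have hD1 : ∑ a ∈ A, ∑ b ∈ B, (if a ≠ b ∧ a ≠ y ∧ b ≠ v then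
        Z G (insert v (insert a (insert y (insert b (insert u (insert x W)))))) else 0) ≤
        Z G (insert v (insert y W)) := by
      refine le_trans ?_ (fp_two G (insert v (insert y W)) x u
        (by simp [hvx.symm, hxy, hx]) (by simp [huv, huy, hu]) hux.symm)
      refine fp_sum_le _ _ _ _ (fun a ha hne => ?_)
      obtain ⟨hadj, hau, hav, haW, hax⟩ := hAmem a ha
      have hay : a ≠ y := by
        intro h
        apply hne
        apply Finset.sum_eq_zero
        intro b _
        simp [h]
      refine ⟨by simp [hau, hav, hay, haW, hadj] , ?_⟩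
      refine fp_sum_le _ _ _ _ (fun b hb hne' => ?_)
      obtain ⟨hbadj, hbx, hby, hbW, hbu⟩ := hBmem b hb
      by_cases hC : a ≠ b ∧ a ≠ y ∧ b ≠ v
      · refine ⟨?_, ?_⟩
        · simp [hbadj, hbx, hby, hbW, hC.2.2, Ne.symm hC.1]
        · rw [if_pos hC, fp_e3]
      · exact absurd (if_neg hC) hne'
    have hD2 : ∑ a ∈ A, ∑ b ∈ B, (if a ≠ b then
        Z G (insert a (insert b (insert u (insert x W)))) else 0) ≤ Z G W := by
      refine le_trans ?_ (fp_two G W x u hx hu hux.symm)
      refine fp_sum_le _ _ _ _ (fun a ha _ => ?_)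
      obtain ⟨hadj, hau, hav, haW, hax⟩ := hAmem a ha
      refine ⟨by simp [hau, haW, hadj] , ?_⟩
      refine fp_sum_le _ _ _ _ (fun b hb hne' => ?_)
      obtain ⟨hbadj, hbx, hby, hbW, hbu⟩ := hBmem b hb
      by_cases hC : a ≠ b
      · refine ⟨?_, ?_⟩
        · simp [hbadj, hbx, hbW, Ne.symm hC]
        · rw [if_pos hC, fp_e4]
      · exact absurd (if_neg hC) hne'
    have hD3 : ∑ b ∈ B, (if b ≠ v then Z G (insert v (insert b (insert u (insert x W)))) else 0) ≤
        Z G (insert x (insert v W)) := by
      rw [Z_expand G (insert x (insert v W)) u (by simp [hux, huv, hu])]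
      refine fp_sum_le _ _ _ _ (fun b hb hne' => ?_)
      obtain ⟨hbadj, hbx, hby, hbW, hbu⟩ := hBmem b hb
      by_cases hC : b ≠ v
      · refine ⟨by simp [hbadj, hbx, hbW, hC], ?_⟩
        rw [if_pos hC, fp_e5]
      · exact absurd (if_neg hC) hne'
    have hD4 : ∑ a ∈ A, (if a ≠ y then Z G (insert a (insert y (insert u (insert x W)))) else 0) ≤
        Z G (insert u (insert y W)) := by
      rw [Z_expand G (insert u (insert y W)) x (by simp [hux.symm, hxy, hx])]
      refine fp_sum_le _ _ _ _ (fun a ha hne' => ?_)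
      obtain ⟨hadj, hau, hav, haW, hax⟩ := hAmem a ha
      by_cases hC : a ≠ y
      · refine ⟨by simp [hadj, hau, haW, hC], ?_⟩
        rw [if_pos hC, fp_e6]
      · exact absurd (if_neg hC) hne'
    rw [e1, e2]
    refine le_trans (fp_alg A B _ _ _ _ _ _ _ _ _ _ _ _ hpt hD1 hD2 hD3 hD4) (le_of_eq ?_)
    rw [fp_e7, Finset.insert_comm x v]
    ring

/-- The four-point inequality. -/
theorem four_point (G : SimpleGraph V) [DecidableRel G.Adj] (W : Finset V) (u v x y : V)
    (hu : u ∉ W) (hv : v ∉ W) (hx : x ∉ W) (hy : y ∉ W)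
    (huv : u ≠ v) (hux : u ≠ x) (huy : u ≠ y) (hvx : v ≠ x) (hvy : v ≠ y) (hxy : x ≠ y) :
    Z G (insert u (insert v W)) * Z G (insert x (insert y W)) ≤
      Z G W * Z G (insert u (insert v (insert x (insert y W))))
        + Z G (insert u (insert x W)) * Z G (insert v (insert y W))
        + Z G (insert u (insert y W)) * Z G (insert v (insert x W)) :=
  fp_aux G _ W u v x y hu hv hx hy huv hux huy hvx hvy hxy le_rfl

end Vale.Agent.Lib.P308
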